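import Vale.Agent.P040.Mono.Stars
import Vale.Agent.P040.Rect.Count

/-!
The crossing points of an x-monotone drawing of `K_{m,n}`.
-/

namespace Vale.Agent.P040.Mono

open Finset Vale.Agent.P040 Vale.Agent.P040.Rect

/-- `P` lies in the interior of the graph of `g` over the interval between `a` and `b`. -/
def OnInt (a b : ℝ × ℝ) (g : ℝ → ℝ) (P : ℝ × ℝ) : Prop :=
  P.1 ∈ Set.Ioo (min a.1 b.1) (max a.1 b.1) ∧ g P.1 = P.2

theorem inOpen_iff {a b x : ℝ} : InOpen a b x ↔ x ∈ Set.Ioo (min a b) (max a b) := by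
  rcases le_total a b with h | h
  · rw [min_eq_left h, max_eq_right h]
    exact ⟨fun h' => h'.elim id fun h'' => absurd (h''.1.trans h''.2) h.not_gt, Or.inl⟩
  · rw [min_eq_right h, max_eq_left h]
    exact ⟨fun h' => h'.elim (fun h'' => absurd (h''.1.trans h''.2) h.not_gt) id, Or.inr⟩

/-- Graphs of continuous functions, with distinct abscissae, no vertex inside an edge, and no
point in the interiors of three edges. -/
structure IsMonotoneDrawing {m n : ℕ} (pA : Fin m → ℝ × ℝ) (pB : Fin n → ℝ × ℝ)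
    (f : Fin m → Fin n → ℝ → ℝ) : Prop where
  distinct : Function.Injective fun s => (Sum.elim pA pB s).1
  cont : ∀ i q, ContinuousOn (f i q) (Set.uIcc (pA i).1 (pB q).1)
  ends : ∀ i q, f i q (pA i).1 = (pA i).2 ∧ f i q (pB q).1 = (pB q).2
  avoidA : ∀ i q j, ¬OnInt (pA i) (pB q) (f i q) (pA j)
  avoidB : ∀ i q r, ¬OnInt (pA i) (pB q) (f i q) (pB r)
  triple : ∀ (P : ℝ × ℝ) (e₁ e₂ e₃ : Fin m × Fin n), e₁ ≠ e₂ → e₁ ≠ e₃ → e₂ ≠ e₃ →
    ¬(OnInt (pA e₁.1) (pB e₁.2) (f e₁.1 e₁.2) P ∧ OnInt (pA e₂.1) (pB e₂.2) (f e₂.1 e₂.2) P ∧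
      OnInt (pA e₃.1) (pB e₃.2) (f e₃.1 e₃.2) P)

/-- The points in the interiors of two edges. -/
def crossPoints {m n : ℕ} (pA : Fin m → ℝ × ℝ) (pB : Fin n → ℝ × ℝ)
    (f : Fin m → Fin n → ℝ → ℝ) : Set (ℝ × ℝ) :=
  {P | ∃ e e' : Fin m × Fin n, e ≠ e' ∧ OnInt (pA e.1) (pB e.2) (f e.1 e.2) P ∧
    OnInt (pA e'.1) (pB e'.2) (f e'.1 e'.2) P}

theorem monotone_sorted (hp : PairStmt) (hr : RangeStmt) {m n : ℕ} (pA : Fin m → ℝ × ℝ)
    (pB : Fin n → ℝ × ℝ) (f : Fin m → Fin n → ℝ → ℝ) (hd : IsMonotoneDrawing pA pB f)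
    (hA : StrictMono fun i => (pA i).1) (hB : StrictMono fun q => (pB q).1) :
    ((m / 2 * ((m - 1) / 2) * (n / 2 * ((n - 1) / 2)) : ℕ) : ℕ∞) ≤
      (crossPoints pA pB f).encard := by
  classical
  have hne : ∀ i q, (pA i).1 ≠ (pB q).1 := fun i q h => by
    simpa using hd.distinct (a₁ := Sum.inl i) (a₂ := Sum.inr q) h
  choose h pos hstar horig htwo using fun i => exists_orderedStar (pA i) pB (f i) hB (hne i)
    (hd.cont i) (fun q => (hd.ends i q).1) (fun q => (hd.ends i q).2)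
    (fun q v hv e => hd.avoidB i q v ⟨inOpen_iff.1 hv, e⟩)
  have hcount := count_bound hp hr pA pB hA hB hne h pos hstar fun i j q hq e => by
    obtain ⟨u, hu, hue⟩ := horig i q _ hq
    exact hd.avoidA i u j ⟨inOpen_iff.1 hu, hue.trans e⟩
  set T := (univ : Finset (Σ _ : Fin m × Fin m, Fin n × Fin n)).filter fun s =>
    s.1.1 < s.1.2 ∧ s.2.1 ≠ s.2.2 ∧ ∃ x, InOpen (pA s.1.1).1 (pB s.2.1).1 x ∧
      InOpen (pA s.1.2).1 (pB s.2.2).1 x ∧ h s.1.1 s.2.1 x = h s.1.2 s.2.2 x with hT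
  have hTc : (∑ i : Fin m, ∑ j : Fin m,
      if i < j then curveMeets (pA i) (pA j) pB (h i) (h j) else 0) = T.card := by
    rw [hT, ← Finset.univ_sigma_univ, Finset.card_filter, Finset.sum_sigma, Fintype.sum_prod_type]
    refine Finset.sum_congr rfl fun i _ => Finset.sum_congr rfl fun j _ => ?_
    by_cases hij : i < j
    · rw [if_pos hij, ← Finset.card_filter, ← Set.ncard_coe_finset]
      unfold curveMeets
      congr 1
      ext e
      simp [hij]
    · simp [hij]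
  rw [hTc] at hcount
  refine (Nat.cast_le.2 hcount).trans ?_
  rw [← Set.encard_coe_eq_coe_finsetCard]
  have hex : ∀ s ∈ T, ∃ x, InOpen (pA s.1.1).1 (pB s.2.1).1 x ∧
      InOpen (pA s.1.2).1 (pB s.2.2).1 x ∧ h s.1.1 s.2.1 x = h s.1.2 s.2.2 x :=
    fun s hs => (mem_filter.1 hs).2.2.2
  set G : (Σ _ : Fin m × Fin m, Fin n × Fin n) → ℝ × ℝ := fun s =>
    if hs : s ∈ T then ((hex s hs).choose, h s.1.1 s.2.1 (hex s hs).choose) else 0 with hG
  have spec : ∀ s ∈ T, InOpen (pA s.1.1).1 (pB s.2.1).1 (G s).1 ∧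
      InOpen (pA s.1.2).1 (pB s.2.2).1 (G s).1 ∧ h s.1.1 s.2.1 (G s).1 = (G s).2 ∧
      h s.1.2 s.2.2 (G s).1 = (G s).2 := by
    intro s hs
    simp only [hG, dif_pos hs]
    exact ⟨(hex s hs).choose_spec.1, (hex s hs).choose_spec.2.1, trivial,
      (hex s hs).choose_spec.2.2.symm⟩
  have orig : ∀ i u (P : ℝ × ℝ), InOpen (pA i).1 (pB u).1 P.1 → h i u P.1 = P.2 →
      ∃ w, OnInt (pA i) (pB w) (f i w) P := fun i u P h1 h2 => by
    obtain ⟨w, hw, he⟩ := horig i u _ h1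
    exact ⟨w, inOpen_iff.1 hw, he.trans h2⟩
  refine Set.encard_le_encard_of_injOn (f := G) ?_ ?_
  · intro s hs
    obtain ⟨a1, a2, a3, a4⟩ := spec s hs
    obtain ⟨w, hw⟩ := orig _ _ _ a1 a3
    obtain ⟨w', hw'⟩ := orig _ _ _ a2 a4
    exact ⟨(s.1.1, w), (s.1.2, w'),
      fun e => (mem_filter.1 hs).2.1.ne (congrArg Prod.fst e), hw, hw'⟩
  · intro s hs s' hs' e
    obtain ⟨a1, a2, a3, a4⟩ := spec s hs
    obtain ⟨c1, c2, c3, c4⟩ := spec s' hs'
    rw [← e] at c1 c2 c3 c4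
    set P := G s
    have hij : s.1.1 < s.1.2 := (mem_filter.1 hs).2.1
    have hij' : s'.1.1 < s'.1.2 := (mem_filter.1 hs').2.1
    obtain ⟨w, hw⟩ := orig _ _ _ a1 a3
    obtain ⟨w', hw'⟩ := orig _ _ _ a2 a4
    -- the classes through `P` are those of `s`
    have only : ∀ k u, InOpen (pA k).1 (pB u).1 P.1 → h k u P.1 = P.2 →
        (k = s.1.1 ∧ u = s.2.1) ∨ (k = s.1.2 ∧ u = s.2.2) := by
      intro k u hk1 hk2
      by_cases k1 : k = s.1.1
      · subst k1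
        by_contra hu
        have hus : u ≠ s.2.1 := fun e => hu (Or.inl ⟨rfl, e⟩)
        obtain ⟨z, z', hzz, hz, hz', ez, ez'⟩ :=
          htwo _ _ _ P.1 hus a1 hk1 (hk2.trans a3.symm)
        exact hd.triple P (s.1.1, z) (s.1.1, z') (s.1.2, w') (by simpa using hzz)
          (fun e => hij.ne (congrArg Prod.fst e)) (fun e => hij.ne (congrArg Prod.fst e))
          ⟨⟨inOpen_iff.1 hz, ez.trans a3⟩, ⟨inOpen_iff.1 hz', ez'.trans a3⟩, hw'⟩
      by_cases k2 : k = s.1.2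
      · subst k2
        by_contra hu
        have hus : u ≠ s.2.2 := fun e => hu (Or.inr ⟨rfl, e⟩)
        obtain ⟨z, z', hzz, hz, hz', ez, ez'⟩ :=
          htwo _ _ _ P.1 hus a2 hk1 (hk2.trans a4.symm)
        exact hd.triple P (s.1.2, z) (s.1.2, z') (s.1.1, w) (by simpa using hzz)
          (fun e => hij.ne' (congrArg Prod.fst e)) (fun e => hij.ne' (congrArg Prod.fst e))
          ⟨⟨inOpen_iff.1 hz, ez.trans a4⟩, ⟨inOpen_iff.1 hz', ez'.trans a4⟩, hw⟩
      obtain ⟨z, hz⟩ := orig k u P hk1 hk2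
      exact absurd ⟨hw, hw', hz⟩ (hd.triple P (s.1.1, w) (s.1.2, w') (k, z)
        (fun e => hij.ne (congrArg Prod.fst e)) (fun e => k1 (congrArg Prod.fst e).symm)
        (fun e => k2 (congrArg Prod.fst e).symm))
    rcases only _ _ c1 c3 with ⟨p1, p2⟩ | ⟨p1, p2⟩ <;>
      rcases only _ _ c2 c4 with ⟨q1, q2⟩ | ⟨q1, q2⟩
    · exact absurd (p1.trans q1.symm) hij'.ne
    · obtain ⟨⟨i, j⟩, u, v⟩ := s
      obtain ⟨⟨i', j'⟩, u', v'⟩ := s'
      simp only at p1 p2 q1 q2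
      subst p1 p2 q1 q2
      rfl
    · exact absurd hij' (by rw [p1, q1]; exact hij.not_gt)
    · exact absurd (p1.trans q1.symm) hij'.ne

/-- Every x-monotone drawing. -/
theorem monotone_bound (hp : PairStmt) (hr : RangeStmt) {m n : ℕ} (pA : Fin m → ℝ × ℝ)
    (pB : Fin n → ℝ × ℝ) (f : Fin m → Fin n → ℝ → ℝ) (hd : IsMonotoneDrawing pA pB f) :
    ((m / 2 * ((m - 1) / 2) * (n / 2 * ((n - 1) / 2)) : ℕ) : ℕ∞) ≤
      (crossPoints pA pB f).encard := by
  have xA : Function.Injective fun i => (pA i).1 := fun i j h => by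
    simpa using hd.distinct (a₁ := Sum.inl i) (a₂ := Sum.inl j) h
  have xB : Function.Injective fun q => (pB q).1 := fun i j h => by
    simpa using hd.distinct (a₁ := Sum.inr i) (a₂ := Sum.inr j) h
  set σ := Tuple.sort fun i => (pA i).1
  set τ := Tuple.sort fun q => (pB q).1
  have hd' : IsMonotoneDrawing (pA ∘ σ) (pB ∘ τ) (fun i q => f (σ i) (τ q)) := by
    refine ⟨?_, fun i q => hd.cont _ _, fun i q => hd.ends _ _, fun i q j => hd.avoidA _ _ _,
      fun i q r => hd.avoidB _ _ _, ?_⟩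
    · rintro (i | i) (j | j) h
      · exact congrArg _ (σ.injective (xA h))
      · simpa using hd.distinct (a₁ := Sum.inl (σ i)) (a₂ := Sum.inr (τ j)) h
      · simpa using hd.distinct (a₁ := Sum.inr (τ i)) (a₂ := Sum.inl (σ j)) h
      · exact congrArg _ (τ.injective (xB h))
    · intro P e₁ e₂ e₃ h1 h2 h3
      exact hd.triple P (σ e₁.1, τ e₁.2) (σ e₂.1, τ e₂.2) (σ e₃.1, τ e₃.2)
        (by simpa [Prod.ext_iff] using h1) (by simpa [Prod.ext_iff] using h2)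
        (by simpa [Prod.ext_iff] using h3)
  refine (monotone_sorted hp hr _ _ _ hd'
    ((Tuple.monotone_sort _).strictMono_of_injective (xA.comp σ.injective))
    ((Tuple.monotone_sort _).strictMono_of_injective (xB.comp τ.injective))).trans ?_
  refine Set.encard_mono fun P hP => ?_
  obtain ⟨e, e', hne, h1, h2⟩ := hP
  exact ⟨(σ e.1, τ e.2), (σ e'.1, τ e'.2), by simpa [Prod.ext_iff] using hne, h1, h2⟩

end Vale.Agent.P040.Mono
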