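import Vale.Agent.P040.Mono.Uncross
import Vale.Agent.P040.Rect.Curves

/-!
Every star of graphs of continuous functions becomes an ordered star on the same set of points.
-/

namespace Vale.Agent.P040.Mono

open Finset Vale.Agent.P040 Vale.Agent.P040.Rect

theorem exists_orderedStar {n : ℕ} (a : ℝ × ℝ) (pB : Fin n → ℝ × ℝ) (f : Fin n → ℝ → ℝ)
    (hB : StrictMono fun q => (pB q).1) (hne : ∀ q, a.1 ≠ (pB q).1)
    (cont : ∀ q, ContinuousOn (f q) (Set.uIcc a.1 (pB q).1))
    (start : ∀ q, f q a.1 = a.2) (fin : ∀ q, f q (pB q).1 = (pB q).2)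
    (avoid : ∀ q v, InOpen a.1 (pB q).1 (pB v).1 → f q (pB v).1 ≠ (pB v).2) :
    ∃ (h : Fin n → ℝ → ℝ) (pos : Fin n → Fin n), OrderedStar a pB h pos ∧
      (∀ q x, InOpen a.1 (pB q).1 x → ∃ u, InOpen a.1 (pB u).1 x ∧ f u x = h q x) ∧
      (∀ q q' x, q' ≠ q → InOpen a.1 (pB q).1 x → InOpen a.1 (pB q').1 x → h q' x = h q x →
        ∃ u u', u ≠ u' ∧ InOpen a.1 (pB u).1 x ∧ InOpen a.1 (pB u').1 x ∧ f u x = h q x ∧
          f u' x = h q x) := by
  classical
  set SR := (univ : Finset (Fin n)).filter fun q => a.1 < (pB q).1 with hSR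
  set SL := (univ : Finset (Fin n)).filter fun q => (pB q).1 < a.1 with hSL
  have mR : ∀ q, q ∈ SR ↔ a.1 < (pB q).1 := fun q => by simp [hSR]
  have mL : ∀ q, q ∈ SL ↔ (pB q).1 < a.1 := fun q => by simp [hSL]
  have bR : Block SR a.1 a.2 (fun q => (pB q).1) (fun q => (pB q).2) f := by
    refine ⟨hB.injective.injOn, fun u hu => (mR u).1 hu, fun u hu => ?_, fun u _ => start u, fun u _ => fin u,
      fun u _ r hr h => avoid u r (Or.inl ⟨(mR r).1 hr, h⟩)⟩
    have := cont u
    rwa [Set.uIcc_of_le ((mR u).1 hu).le] at this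
  have bL : Block SL (-a.1) a.2 (fun q => -(pB q).1) (fun q => (pB q).2)
      (fun q z => f q (-z)) := by
    refine ⟨(neg_injective.comp hB.injective).injOn, fun u hu => neg_lt_neg ((mL u).1 hu), fun u hu => ?_,
      fun u _ => by simp [start], fun u _ => by simp [fin],
      fun u _ r hr h => by
        simpa using avoid u r (Or.inr ⟨by simpa using h, (mL r).1 hr⟩)⟩
    refine (cont u).comp continuous_neg.continuousOn fun z hz => ?_
    rw [Set.uIcc_of_ge ((mL u).1 hu).le]
    exact ⟨by linarith [hz.2], by linarith [hz.1]⟩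
  obtain ⟨LR, hR, injR, rR, atR, valR, twoR⟩ := uncross bR
  obtain ⟨LL, hL, injL, rL, atL, valL, twoL⟩ := uncross bL
  set M := univ.sup LR + 1 with hM
  have ltM : ∀ q, LR q < M := fun q => Nat.lt_succ_of_le (le_sup (mem_univ q))
  set K : Fin n → ℕ := fun q => if a.1 < (pB q).1 then LR q else M + LL q with hK
  have notR : ∀ q, ¬a.1 < (pB q).1 → (pB q).1 < a.1 := fun q h =>
    lt_of_le_of_ne (not_lt.1 h) fun e => hne q e.symm
  have hKinj : Function.Injective K := by
    intro r q e
    simp only [hK] at e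
    split_ifs at e with h1 h2 h2
    · exact injR ((mR r).2 h1) ((mR q).2 h2) e
    · have := ltM r; omega
    · have := ltM q; omega
    · exact injL ((mL r).2 (notR r h1)) ((mL q).2 (notR q h2)) (by omega)
  set pos : Fin n → Fin n :=
    fun q => ⟨rk univ K q, (rk_lt K (mem_univ q)).trans_eq (card_fin n)⟩ with hpos
  have posmono : ∀ r q, K r < K q → pos r < pos q := fun r q h => rk_strict K (mem_univ r) h
  have poslt : ∀ r q, pos r < pos q ↔ K r < K q := by
    intro r q
    refine ⟨fun h => ?_, posmono r q⟩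
    by_contra hle
    rcases (not_lt.1 hle).lt_or_eq with h' | h'
    · exact absurd (posmono q r h') h.not_gt
    · exact absurd h (by rw [hKinj h']; exact lt_irrefl _)
  set h : Fin n → ℝ → ℝ := fun q x => if a.1 < (pB q).1 then hR q x else hL q (-x) with hh
  have side : ∀ q x, InOpen a.1 (pB q).1 x →
      (a.1 < (pB q).1 ∧ a.1 < x ∧ x < (pB q).1) ∨ ((pB q).1 < a.1 ∧ (pB q).1 < x ∧ x < a.1) := by
    rintro q x (⟨h1, h2⟩ | ⟨h1, h2⟩)
    · exact Or.inl ⟨h1.trans h2, h1, h2⟩
    · exact Or.inr ⟨h1.trans h2, h1, h2⟩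
  have hav : ∀ q v, InOpen a.1 (pB q).1 (pB v).1 → h q (pB v).1 ≠ (pB v).2 := by
    intro q v hv
    rcases side q _ hv with ⟨hq, h1, h2⟩ | ⟨hq, h1, h2⟩
    · simp only [hh, if_pos hq]
      exact (atR q ((mR q).2 hq) v ((mR v).2 h1) h2).1
    · simp only [hh, if_neg hq.not_gt]
      exact (atL q ((mL q).2 hq) v ((mL v).2 h2) (neg_lt_neg h1)).1
  -- a value at an interior point lies in the interior of an original edge
  have strict : ∀ q u x, InOpen a.1 (pB q).1 x →
      (a.1 < x → x ≤ (pB u).1) → (x < a.1 → (pB u).1 ≤ x) → f u x = h q x →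
      InOpen a.1 (pB u).1 x := by
    intro q u x hx h1 h2 he
    have hne' : x ≠ (pB u).1 := by
      intro e
      subst e
      exact hav q u hx (by rw [← he, fin u])
    rcases side q x hx with ⟨-, h3, -⟩ | ⟨-, -, h3⟩
    · exact Or.inl ⟨h3, lt_of_le_of_ne (h1 h3) hne'⟩
    · exact Or.inr ⟨lt_of_le_of_ne (h2 h3) hne'.symm, h3⟩
  refine ⟨h, pos, ⟨?_, ?_, ?_, hav, ⟨?_, ?_, ?_⟩, ?_, ?_⟩, ?_, ?_⟩
  · intro q
    by_cases hq : a.1 < (pB q).1
    · simp only [hh, if_pos hq, Set.uIcc_of_le hq.le]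
      exact (rR q ((mR q).2 hq)).1
    · simp only [hh, if_neg hq, Set.uIcc_of_ge (notR q hq).le]
      exact (rL q ((mL q).2 (notR q hq))).1.comp continuous_neg.continuousOn
        fun z hz => ⟨neg_le_neg hz.2, neg_le_neg hz.1⟩
  · intro q
    by_cases hq : a.1 < (pB q).1
    · simp only [hh, if_pos hq]
      exact (rR q ((mR q).2 hq)).2.1
    · simp only [hh, if_neg hq]
      exact (rL q ((mL q).2 (notR q hq))).2.1
  · intro q
    by_cases hq : a.1 < (pB q).1
    · simp only [hh, if_pos hq]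
      exact (rR q ((mR q).2 hq)).2.2
    · simp only [hh, if_neg hq]
      exact (rL q ((mL q).2 (notR q hq))).2.2
  · exact (card_filter_le _ _).trans_eq (card_fin n)
  · intro r q e
    rcases lt_trichotomy (K r) (K q) with h' | h' | h'
    · exact absurd e (posmono r q h').ne
    · exact hKinj h'
    · exact absurd e (posmono q r h').ne'
  · -- the right block comes first
    intro l r hl hr
    refine posmono r l ?_
    simp only [hK, if_pos ((lcount_le hB hne r).1 hr), if_neg ((lt_lcount hB l).1 hl).not_gt]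
    have := ltM r
    omega
  · intro r q hrq hr
    have hq : a.1 < (pB q).1 := hr.trans (hB hrq)
    have e1 := (atR q ((mR q).2 hq) r ((mR r).2 hr) (hB hrq)).2
    simp only [ordBit, poslt, hK, hh, if_pos hr, if_pos hq]
    exact decide_eq_decide.2 e1.symm
  · intro r q hrq hq
    have hr : (pB r).1 < a.1 := (hB hrq).trans hq
    obtain ⟨e0, e1⟩ := atL r ((mL r).2 hr) q ((mL q).2 hq) (neg_lt_neg (hB hrq))
    simp only [ordBit, poslt, hK, hh, if_neg hr.not_gt, if_neg hq.not_gt]
    refine decide_eq_decide.2 ⟨fun h => lt_of_le_of_ne (not_lt.1 fun h' => ?_) e0, fun h => ?_⟩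
    · have := e1.1 h'
      omega
    · have hlr : LL r ≠ LL q := fun e => hrq.ne (injL ((mL r).2 hr) ((mL q).2 hq) e)
      by_contra h'
      exact h.not_gt (e1.2 (by omega))
  · intro q x hx
    rcases side q x hx with ⟨hq, h1, h2⟩ | ⟨hq, h1, h2⟩
    · obtain ⟨u, -, hu, he⟩ := valR q ((mR q).2 hq) x h2.le
      refine ⟨u, strict q u x hx (fun _ => hu) (fun h' => absurd h1 h'.not_gt) ?_, ?_⟩
      · simp only [hh, if_pos hq, he]
      · simp only [hh, if_pos hq, he]
    · obtain ⟨u, -, hu, he⟩ := valL q ((mL q).2 hq) (-x) (neg_le_neg h1.le)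
      simp only [neg_neg] at he
      refine ⟨u, strict q u x hx (fun h' => absurd h2 h'.not_gt) (fun _ => neg_le_neg_iff.1 hu) ?_,
        ?_⟩
      · simp only [hh, if_neg hq.not_gt, he]
      · simp only [hh, if_neg hq.not_gt, he]
  · intro q q' x hne' hx hx' e
    rcases side q x hx with ⟨hq, h1, h2⟩ | ⟨hq, h1, h2⟩
    · rcases side q' x hx' with ⟨hq', -, h2'⟩ | ⟨-, -, h3⟩
      swap
      · exact absurd h1 h3.not_gt
      simp only [hh, if_pos hq, if_pos hq'] at e
      obtain ⟨u, -, u', -, huu, hu, hu', he, he'⟩ :=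
        twoR q ((mR q).2 hq) q' ((mR q').2 hq') hne' x h2.le h2'.le e
      have eq : h q x = hR q x := by simp only [hh, if_pos hq]
      exact ⟨u, u', huu, strict q u x hx (fun _ => hu) (fun h' => absurd h1 h'.not_gt) (he.trans eq.symm),
        strict q u' x hx (fun _ => hu') (fun h' => absurd h1 h'.not_gt) (he'.trans eq.symm),
        he.trans eq.symm, he'.trans eq.symm⟩
    · rcases side q' x hx' with ⟨-, h3, -⟩ | ⟨hq', h1', -⟩
      · exact absurd h2 h3.not_gt
      simp only [hh, if_neg hq.not_gt, if_neg hq'.not_gt] at e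
      obtain ⟨u, -, u', -, huu, hu, hu', he, he'⟩ := twoL q ((mL q).2 hq) q' ((mL q').2 hq') hne'
        (-x) (neg_le_neg h1.le) (neg_le_neg h1'.le) e
      simp only [neg_neg] at he he'
      have eq : h q x = hL q (-x) := by simp only [hh, if_neg hq.not_gt]
      exact ⟨u, u', huu,
        strict q u x hx (fun h' => absurd h2 h'.not_gt) (fun _ => neg_le_neg_iff.1 hu) (he.trans eq.symm),
        strict q u' x hx (fun h' => absurd h2 h'.not_gt) (fun _ => neg_le_neg_iff.1 hu')
          (he'.trans eq.symm), he.trans eq.symm, he'.trans eq.symm⟩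

end Vale.Agent.P040.Mono
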