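import Mathlib

/-!
Uncrossing one side of a star of graphs of continuous functions by order statistics.

The edges `f u`, `u ∈ S`, start at `(xI, yI)` and end at `(b u, y u)`. There are a linear order `L`
(insertion from the right) and functions `h q` which use only values of the `f u`, start and end
at the same points, and pass above `(b r, y r)` exactly when `L r < L q`.
-/

namespace Vale.Agent.P040.Mono

open Finset

variable {ι : Type*}

/-- `v` is the order statistic of index `k` (from zero) of `g` on `A`. -/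
def IsOS (A : Finset ι) (g : ι → ℝ) (k : ℕ) (v : ℝ) : Prop :=
  (A.filter fun u => g u < v).card ≤ k ∧ k < (A.filter fun u => g u ≤ v).card

/-- The largest value on a set, `0` for the empty set. -/
noncomputable def top' (T : Finset ι) (g : ι → ℝ) : ℝ :=
  if h : T.Nonempty then T.sup' h g else 0

/-- The order statistic of index `k` as a min-max. -/
noncomputable def os (A : Finset ι) (g : ι → ℝ) (k : ℕ) : ℝ :=
  if h : (A.powersetCard (k + 1)).Nonempty then (A.powersetCard (k + 1)).inf' h fun T => top' T g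
  else 0

theorem exists_isOS (A : Finset ι) (g : ι → ℝ) {k : ℕ} (hk : k < A.card) :
    ∃ v, IsOS A g k v := by
  classical
  set V := A.filter fun u => k < (A.filter fun w => g w ≤ g u).card with hV
  have hA : A.Nonempty := card_pos.1 (by omega)
  obtain ⟨m, hm, hmax⟩ := exists_max_image A g hA
  have hmV : m ∈ V := by
    refine mem_filter.2 ⟨hm, ?_⟩
    rwa [filter_true_of_mem fun w hw => hmax w hw]
  obtain ⟨u, hu, humin⟩ := exists_min_image V g ⟨m, hmV⟩
  refine ⟨g u, ?_, (mem_filter.1 hu).2⟩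
  by_contra hlt
  obtain ⟨w, hw, hwmax⟩ := exists_max_image (A.filter fun w => g w < g u) g
    (card_pos.1 (by omega))
  rw [mem_filter] at hw
  have : w ∈ V := by
    refine mem_filter.2 ⟨hw.1, (not_le.1 hlt).trans_le (card_le_card fun z hz => ?_)⟩
    exact mem_filter.2 ⟨(mem_filter.1 hz).1, hwmax z hz⟩
  exact (humin w this).not_gt hw.2

theorem IsOS.os_eq {A : Finset ι} {g : ι → ℝ} {k : ℕ} {v : ℝ} (hv : IsOS A g k v) :
    os A g k = v := by
  classical
  obtain ⟨T, hT, hTc⟩ := exists_subset_card_eq (s := A.filter fun u => g u ≤ v) (n := k + 1) hv.2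
  have hTA : T ∈ A.powersetCard (k + 1) :=
    mem_powersetCard.2 ⟨hT.trans (filter_subset _ _), hTc⟩
  have hne : T.Nonempty := card_pos.1 (by omega)
  rw [os, dif_pos ⟨T, hTA⟩]
  refine le_antisymm ((inf'_le (fun T => top' T g) hTA).trans ?_) (le_inf' _ _ fun U hU => ?_)
  · rw [top', dif_pos hne]
    exact sup'_le _ _ fun u hu => (mem_filter.1 (hT hu)).2
  · obtain ⟨hUA, hUc⟩ := mem_powersetCard.1 hU
    rw [top', dif_pos (card_pos.1 (by omega))]
    by_contra hlt
    rw [not_le, sup'_lt_iff] at hlt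
    have := card_le_card (t := A.filter fun u => g u < v)
      fun u hu => mem_filter.2 ⟨hUA hu, hlt u hu⟩
    have := hv.1
    omega

theorem os_spec (A : Finset ι) (g : ι → ℝ) {k : ℕ} (hk : k < A.card) :
    IsOS A g k (os A g k) := by
  obtain ⟨v, hv⟩ := exists_isOS A g hk
  rwa [hv.os_eq]

theorem os_congr {A : Finset ι} {g g' : ι → ℝ} {k : ℕ} (h : ∀ u ∈ A, g u = g' u) :
    os A g k = os A g' k := by
  unfold os
  split_ifs with hne
  · refine Finset.inf'_congr hne rfl fun T hT => ?_
    unfold top'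
    split_ifs with hT'
    · exact Finset.sup'_congr hT' rfl fun u hu => h u ((mem_powersetCard.1 hT).1 hu)
    · rfl
  · rfl

theorem continuous_os (A : Finset ι) (k : ℕ) {F : ι → ℝ → ℝ} (hF : ∀ u, Continuous (F u)) :
    Continuous fun x => os A (fun u => F u x) k := by
  unfold os
  by_cases hne : (A.powersetCard (k + 1)).Nonempty
  · simp only [dif_pos hne]
    refine Continuous.finset_inf'_apply hne fun T _ => ?_
    unfold top'
    by_cases hT : T.Nonempty
    · simp only [dif_pos hT]
      exact Continuous.finset_sup'_apply hT fun u _ => hF u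
    · simpa only [dif_neg hT] using continuous_const
  · simpa only [dif_neg hne] using continuous_const

/-- The position of `q` in the order `L` restricted to `A`. -/
def rk (A : Finset ι) (L : ι → ℕ) (q : ι) : ℕ := (A.filter fun u => L u < L q).card

theorem rk_lt {A : Finset ι} (L : ι → ℕ) {q : ι} (hq : q ∈ A) : rk A L q < A.card :=
  card_lt_card <| (filter_ssubset).2 ⟨q, hq, lt_irrefl _⟩

theorem rk_strict {A : Finset ι} (L : ι → ℕ) {r q : ι} (hr : r ∈ A) (h : L r < L q) :
    rk A L r < rk A L q := by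
  refine card_lt_card ⟨fun u hu => ?_, fun hs => ?_⟩
  · exact mem_filter.2 ⟨(mem_filter.1 hu).1, (mem_filter.1 hu).2.trans h⟩
  · exact lt_irrefl _ (mem_filter.1 (hs (mem_filter.2 ⟨hr, h⟩))).2

/-- Deleting the value that sits at the rank prescribed by `L` leaves the statistics in place. -/
theorem os_erase [DecidableEq ι] {A : Finset ι} {L : ι → ℕ} (hL : Set.InjOn L A) {g : ι → ℝ}
    {r q : ι} (hr : r ∈ A) (hq : q ∈ A) (hqr : q ≠ r) (hne : ∀ u ∈ A.erase r, g u ≠ g r)
    (hcode : rk (A.erase r) L r = ((A.erase r).filter fun u => g u < g r).card) :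
    os A g (rk A L q) = os (A.erase r) g (rk (A.erase r) L q) ∧
      os A g (rk A L q) ≠ g r ∧ (g r < os A g (rk A L q) ↔ L r < L q) := by
  set A' := A.erase r with hA'
  have hq' : q ∈ A' := mem_erase.2 ⟨hqr, hq⟩
  have hnot : r ∉ A' := notMem_erase r A
  have hins : insert r A' = A := insert_erase hr
  have hv := os_spec A' g (rk_lt L hq')
  set v := os A' g (rk A' L q)
  obtain ⟨h1, h2⟩ := hv
  have hvne : v ≠ g r := by
    intro e
    have : (A'.filter fun u => g u ≤ v) = A'.filter fun u => g u < v := by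
      refine filter_congr fun u hu => ⟨fun h => lt_of_le_of_ne h ?_, le_of_lt⟩
      rw [e]
      exact hne u hu
    rw [this] at h2
    omega
  have key : g r < v ↔ L r < L q := by
    constructor
    · intro h
      by_contra hle
      have hlt : L q < L r :=
        lt_of_le_of_ne (not_lt.1 hle) fun e => hqr (hL hq hr e)
      have a1 := rk_strict L hq' hlt
      have a2 : (A'.filter fun u => g u < g r).card ≤ (A'.filter fun u => g u < v).card :=
        card_le_card fun u hu =>
          mem_filter.2 ⟨(mem_filter.1 hu).1, (mem_filter.1 hu).2.trans h⟩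
      omega
    · intro h
      by_contra hle
      have hlt : v < g r := lt_of_le_of_ne (not_lt.1 hle) hvne
      have a1 : rk A' L r ≤ rk A' L q := card_le_card fun u hu =>
        mem_filter.2 ⟨(mem_filter.1 hu).1, (mem_filter.1 hu).2.trans h⟩
      have a2 : (A'.filter fun u => g u ≤ v).card ≤ (A'.filter fun u => g u < g r).card :=
        card_le_card fun u hu =>
          mem_filter.2 ⟨(mem_filter.1 hu).1, (mem_filter.1 hu).2.trans_lt hlt⟩
      omega
  have cnt : ∀ (P : ι → Prop) [DecidablePred P],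
      (A.filter P).card = (A'.filter P).card + if P r then 1 else 0 := by
    intro P _
    rw [← hins, filter_insert]
    split_ifs
    · rw [card_insert_of_notMem fun h => hnot (mem_filter.1 h).1]
    · rfl
  have hOS : IsOS A g (rk A L q) v := by
    have e1 : rk A L q = rk A' L q + if g r < v then 1 else 0 := by
      rw [rk, cnt]
      simp only [key, rk]
    refine ⟨?_, ?_⟩
    · rw [cnt, e1]
      omega
    · rw [cnt, e1]
      have : g r ≤ v ↔ g r < v := ⟨fun h => lt_of_le_of_ne h hvne.symm, le_of_lt⟩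
      simp only [this]
      omega
  rw [hOS.os_eq]
  exact ⟨rfl, hvne, key⟩

/-- The edges of one side of a star. -/
structure Block (S : Finset ι) (xI yI : ℝ) (b y : ι → ℝ) (f : ι → ℝ → ℝ) : Prop where
  inj : Set.InjOn b S
  lt : ∀ u ∈ S, xI < b u
  cont : ∀ u ∈ S, ContinuousOn (f u) (Set.Icc xI (b u))
  start : ∀ u ∈ S, f u xI = yI
  stop : ∀ u ∈ S, f u (b u) = y u
  avoid : ∀ u ∈ S, ∀ r ∈ S, b r < b u → f u (b r) ≠ y r

/-- `L` inserts each vertex, from the right, at its height among the edges passing it. -/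
def Code (S : Finset ι) (b y : ι → ℝ) (f : ι → ℝ → ℝ) (L : ι → ℕ) : Prop :=
  Set.InjOn L S ∧ ∀ r ∈ S, rk (S.filter fun u => b r < b u) L r =
    ((S.filter fun u => b r < b u).filter fun u => f u (b r) < y r).card

theorem exists_threshold [DecidableEq ι] {s : Finset ι} {L : ι → ℕ} (hL : Set.InjOn L s) {k : ℕ}
    (hk : k ≤ s.card) : ∃ t, (s.filter fun u => L u < t).card = k := by
  have hex : ∃ t, k ≤ (s.filter fun u => L u < t).card := by
    refine ⟨s.sup L + 1, ?_⟩
    rwa [filter_true_of_mem fun u hu => Nat.lt_succ_of_le (le_sup hu)]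
  refine ⟨Nat.find hex, le_antisymm ?_ (Nat.find_spec hex)⟩
  rcases Nat.eq_zero_or_pos (Nat.find hex) with h0 | h0
  · simp [h0]
  · have hlt := Nat.find_min hex (Nat.sub_one_lt (by omega : Nat.find hex ≠ 0))
    set t := Nat.find hex
    have hone : (s.filter fun u => L u = t - 1).card ≤ 1 := card_le_one.2 fun u hu v hv =>
      hL (mem_filter.1 hu).1 (mem_filter.1 hv).1 ((mem_filter.1 hu).2.trans (mem_filter.1 hv).2.symm)
    have : (s.filter fun u => L u < t) ⊆
        (s.filter fun u => L u < t - 1) ∪ s.filter fun u => L u = t - 1 := by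
      intro u hu
      simp only [mem_union, mem_filter] at hu ⊢
      rcases (show L u < t - 1 ∨ L u = t - 1 by omega) with h | h
      · exact .inl ⟨hu.1, h⟩
      · exact .inr ⟨hu.1, h⟩
    have := (card_le_card this).trans (card_union_le _ _)
    omega

theorem exists_code [DecidableEq ι] (b y : ι → ℝ) (f : ι → ℝ → ℝ) (S : Finset ι)
    (hb : Set.InjOn b S) : ∃ L, Code S b y f L := by
  induction S using Finset.induction_on_min_value b with
  | empty => exact ⟨fun _ => 0, by simp [Code]⟩
  | insert a s has hmin ih =>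
    obtain ⟨L, hLi, hL⟩ := ih (hb.mono (coe_subset.2 (subset_insert a s)))
    have hlt : ∀ u ∈ s, b a < b u := fun u hu => lt_of_le_of_ne (hmin u hu) fun e =>
      has (hb (by simp) (by simp [hu]) e ▸ hu)
    obtain ⟨t, ht⟩ := exists_threshold hLi (card_filter_le s fun u => f u (b a) < y a)
    refine ⟨fun u => if u = a then 2 * t else 2 * L u + 1, ?_, ?_⟩
    · intro u hu v hv e
      simp only [coe_insert, Set.mem_insert_iff, mem_coe] at hu hv
      simp only at e
      split_ifs at e with h1 h2 h2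
      · rw [h1, h2]
      · omega
      · omega
      · exact hLi (hu.resolve_left h1) (hv.resolve_left h2) (by omega)
    · intro r hr
      rcases eq_or_ne r a with rfl | hra
      · have hf : (insert r s).filter (fun u => b r < b u) = s := by
          rw [filter_insert, if_neg (lt_irrefl _), filter_true_of_mem hlt]
        rw [hf, rk, ← ht]
        refine congrArg card (filter_congr fun u hu => ?_)
        rw [if_neg fun e : u = r => has (e ▸ hu), if_pos rfl]
        omega
      · have hrs : r ∈ s := (mem_insert.1 hr).resolve_left hra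
        have hf : (insert a s).filter (fun u => b r < b u) = s.filter fun u => b r < b u := by
          rw [filter_insert, if_neg (hlt r hrs).le.not_gt]
        rw [hf, ← hL r hrs, rk, rk]
        refine congrArg card (filter_congr fun u hu => ?_)
        rw [if_neg fun e : u = a => has (e ▸ (mem_filter.1 hu).1), if_neg hra]
        omega

/-- The edges still present at `x`. -/
noncomputable def alive (S : Finset ι) (b : ι → ℝ) (x : ℝ) : Finset ι :=
  S.filter fun u => x ≤ b u

/-- The uncrossed edge of `q`. -/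
noncomputable def hfun (S : Finset ι) (b : ι → ℝ) (f : ι → ℝ → ℝ) (L : ι → ℕ) (q : ι) (x : ℝ) :
    ℝ :=
  os (alive S b x) (fun u => f u x) (rk (alive S b x) L q)

variable {S : Finset ι} {xI yI : ℝ} {b y : ι → ℝ} {f : ι → ℝ → ℝ} {L : ι → ℕ} {q : ι}

theorem mem_alive {u : ι} {x : ℝ} : u ∈ alive S b x ↔ u ∈ S ∧ x ≤ b u := mem_filter

theorem hfun_spec (hq : q ∈ S) {x : ℝ} (hx : x ≤ b q) :
    IsOS (alive S b x) (fun u => f u x) (rk (alive S b x) L q) (hfun S b f L q x) :=
  os_spec _ _ (rk_lt L (mem_alive.2 ⟨hq, hx⟩))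

theorem hfun_value (hq : q ∈ S) {x : ℝ} (hx : x ≤ b q) :
    ∃ u ∈ S, x ≤ b u ∧ f u x = hfun S b f L q x := by
  obtain ⟨h1, h2⟩ := hfun_spec (f := f) (L := L) hq hx
  obtain ⟨u, hu, hu'⟩ := exists_mem_notMem_of_card_lt_card (h1.trans_lt h2)
  obtain ⟨huA, hule⟩ := mem_filter.1 hu
  exact ⟨u, (mem_alive.1 huA).1, (mem_alive.1 huA).2,
    le_antisymm hule (not_lt.1 fun h => hu' (mem_filter.2 ⟨huA, h⟩))⟩

theorem hfun_two [DecidableEq ι] (hL : Set.InjOn L S) (hq : q ∈ S) {q' : ι} (hq' : q' ∈ S)
    (hne : q' ≠ q) {x : ℝ} (hx : x ≤ b q) (hx' : x ≤ b q')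
    (he : hfun S b f L q' x = hfun S b f L q x) :
    ∃ u ∈ S, ∃ u' ∈ S, u ≠ u' ∧ x ≤ b u ∧ x ≤ b u' ∧ f u x = hfun S b f L q x ∧
      f u' x = hfun S b f L q x := by
  obtain ⟨a1, a2⟩ := hfun_spec (f := f) (L := L) hq hx
  obtain ⟨c1, c2⟩ := hfun_spec (f := f) (L := L) hq' hx'
  rw [he] at c1 c2
  simp only at a1 a2 c1 c2
  set v := hfun S b f L q x
  set A := alive S b x
  have hrk : rk A L q ≠ rk A L q' := by
    rcases lt_or_gt_of_ne fun e => hne (hL hq' hq e.symm) with h | h
    · exact (rk_strict L (mem_alive.2 ⟨hq, hx⟩) h).ne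
    · exact (rk_strict L (mem_alive.2 ⟨hq', hx'⟩) h).ne'
  have hsub : A.filter (fun u => f u x ≤ v) ⊆
      A.filter (fun u => f u x < v) ∪ A.filter (fun u => f u x = v) := by
    intro u hu
    simp only [mem_union, mem_filter] at hu ⊢
    rcases hu.2.lt_or_eq with h | h
    · exact .inl ⟨hu.1, h⟩
    · exact .inr ⟨hu.1, h⟩
  have := (card_le_card hsub).trans (card_union_le _ _)
  obtain ⟨u, hu, u', hu', huu⟩ := one_lt_card.1
    (show 1 < (A.filter fun u => f u x = v).card by omega)
  obtain ⟨huA, hue⟩ := mem_filter.1 hu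
  obtain ⟨huA', hue'⟩ := mem_filter.1 hu'
  exact ⟨u, (mem_alive.1 huA).1, u', (mem_alive.1 huA').1, huu, (mem_alive.1 huA).2,
    (mem_alive.1 huA').2, hue, hue'⟩

variable (hB : Block S xI yI b y f) (hL : Code S b y f L)
include hB

theorem hfun_start (hq : q ∈ S) : hfun S b f L q xI = yI := by
  have hval : ∀ u ∈ alive S b xI, f u xI = yI := fun u hu => hB.start u (mem_alive.1 hu).1
  refine IsOS.os_eq ⟨?_, ?_⟩
  · rw [filter_false_of_mem fun u hu => by simp [hval u hu]]
    simp
  · rw [filter_true_of_mem fun u hu => (hval u hu).le]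
    exact rk_lt L (mem_alive.2 ⟨hq, (hB.lt q hq).le⟩)

include hL

theorem erase_facts [DecidableEq ι] {r : ι} (hr : r ∈ S) :
    (alive S b (b r)).erase r = S.filter (fun u => b r < b u) ∧
      (∀ u ∈ (alive S b (b r)).erase r, f u (b r) ≠ f r (b r)) ∧
      rk ((alive S b (b r)).erase r) L r =
        (((alive S b (b r)).erase r).filter fun u => f u (b r) < f r (b r)).card := by
  have he : (alive S b (b r)).erase r = S.filter fun u => b r < b u := by
    ext u
    simp only [mem_erase, mem_alive, mem_filter]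
    exact ⟨fun h => ⟨h.2.1, lt_of_le_of_ne h.2.2 fun e => h.1 (hB.inj h.2.1 hr e.symm)⟩,
      fun h => ⟨fun e => (e ▸ h.2).false, h.1, h.2.le⟩⟩
  rw [he, hB.stop r hr]
  exact ⟨rfl, fun u hu => hB.avoid u (mem_filter.1 hu).1 r hr (mem_filter.1 hu).2, hL.2 r hr⟩

theorem hfun_at_vertex [DecidableEq ι] {r : ι} (hr : r ∈ S) (hq : q ∈ S) (hlt : b r < b q) :
    hfun S b f L q (b r) ≠ y r ∧ (y r < hfun S b f L q (b r) ↔ L r < L q) := by
  obtain ⟨-, h2, h3⟩ := erase_facts hB hL hr
  rw [← hB.stop r hr]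
  exact (os_erase (hL.1.mono fun u hu => (mem_alive.1 hu).1) (mem_alive.2 ⟨hr, le_rfl⟩)
    (mem_alive.2 ⟨hq, hlt.le⟩) (fun e => (e ▸ hlt).false) h2 h3).2

theorem hfun_stop [DecidableEq ι] (hq : q ∈ S) : hfun S b f L q (b q) = y q := by
  obtain ⟨-, h2, h3⟩ := erase_facts hB hL hq
  have hins : insert q ((alive S b (b q)).erase q) = alive S b (b q) :=
    insert_erase (mem_alive.2 ⟨hq, le_rfl⟩)
  rw [← hB.stop q hq]
  refine IsOS.os_eq ⟨?_, ?_⟩
  · rw [← hins, filter_insert, if_neg (lt_irrefl _), ← h3]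
    exact card_le_card (filter_subset_filter _ (subset_insert _ _))
  · rw [← hins, filter_insert, if_pos le_rfl,
      card_insert_of_notMem (fun h => notMem_erase q _ (mem_filter.1 h).1), Nat.lt_succ_iff,
      rk, filter_insert, if_neg (lt_irrefl _)]
    exact h3.le.trans (card_le_card fun u hu =>
      mem_filter.2 ⟨(mem_filter.1 hu).1, (mem_filter.1 hu).2.le⟩)

theorem hfun_continuous [DecidableEq ι] (hq : q ∈ S) :
    ContinuousOn (hfun S b f L q) (Set.Icc xI (b q)) := by
  intro x₀ hx₀
  set F : ι → ℝ → ℝ := fun u => if h : xI ≤ b u ∧ u ∈ S then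
    Set.IccExtend h.1 fun z => f u z else fun _ => 0 with hFdef
  have hF : ∀ u, Continuous (F u) := by
    intro u
    rw [hFdef]
    dsimp only
    split_ifs with h
    · exact ((hB.cont u h.2).restrict).Icc_extend'
    · exact continuous_const
  have hFf : ∀ u ∈ S, ∀ z ∈ Set.Icc xI (b u), F u z = f u z := by
    intro u hu z hz
    rw [hFdef]
    dsimp only
    rw [dif_pos ⟨(hB.lt u hu).le, hu⟩, Set.IccExtend_of_mem _ _ hz]
  set A' := S.filter fun u => x₀ < b u with hA'
  have ev : ∀ᶠ x in nhds x₀, ∀ u ∈ S, (b u < x₀ → b u < x) ∧ (x₀ < b u → x < b u) := by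
    rw [Filter.eventually_all_finset]
    intro u _
    refine Filter.Eventually.and ?_ ?_ <;> by_cases h : b u < x₀ <;>
      by_cases h' : x₀ < b u <;>
      first
      | exact Filter.Eventually.of_forall fun x hh => absurd hh (by linarith)
      | exact (eventually_gt_nhds h).mono fun x hx _ => hx
      | exact (eventually_lt_nhds h').mono fun x hx _ => hx
  have hsplit : Set.Icc xI (b q) =
      Set.Icc xI (b q) ∩ Set.Iic x₀ ∪ Set.Icc xI (b q) ∩ Set.Ici x₀ := by
    rw [← Set.inter_union_distrib_left, Set.Iic_union_Ici, Set.inter_univ]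
  rw [hsplit]
  refine ContinuousWithinAt.union ?_ ?_
  · refine ((continuous_os (alive S b x₀) (rk (alive S b x₀) L q)
      hF).continuousWithinAt.congr_of_eventuallyEq ?_ ?_)
    · filter_upwards [nhdsWithin_le_nhds ev, self_mem_nhdsWithin] with x hx hxs
      have ha : alive S b x = alive S b x₀ := by
        refine filter_congr fun u hu => ⟨fun h => ?_, fun h => hxs.2.trans h⟩
        by_contra hlt
        exact ((hx u hu).1 (not_le.1 hlt)).not_ge h
      rw [hfun, ha]
      exact os_congr fun u hu => (hFf u (mem_alive.1 hu).1 x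
        ⟨hxs.1.1, hxs.2.trans (mem_alive.1 hu).2⟩).symm
    · exact os_congr fun u hu =>
        (hFf u (mem_alive.1 hu).1 x₀ ⟨hx₀.1, (mem_alive.1 hu).2⟩).symm
  · rcases hx₀.2.lt_or_eq with hlt | heq
    · have h0 : hfun S b f L q x₀ = os A' (fun u => f u x₀) (rk A' L q) := by
        by_cases hr : ∃ r ∈ S, b r = x₀
        · obtain ⟨r, hr, rfl⟩ := hr
          obtain ⟨h1, h2, h3⟩ := erase_facts hB hL hr
          rw [hA', ← h1]
          exact (os_erase (hL.1.mono fun u hu => (mem_alive.1 hu).1) (mem_alive.2 ⟨hr, le_rfl⟩)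
            (mem_alive.2 ⟨hq, hlt.le⟩) (fun e => (e ▸ hlt).false) h2 h3).1
        · have ha : alive S b x₀ = A' := filter_congr fun u hu =>
            ⟨fun h => lt_of_le_of_ne h fun e => hr ⟨u, hu, e.symm⟩, le_of_lt⟩
          rw [hfun, ha]
      refine ((continuous_os A' (rk A' L q) hF).continuousWithinAt.congr_of_eventuallyEq ?_ ?_)
      · filter_upwards [nhdsWithin_le_nhds ev, self_mem_nhdsWithin] with x hx hxs
        rcases (show x₀ ≤ x from hxs.2).lt_or_eq with hgt | rfl
        · have ha : alive S b x = A' :=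
            filter_congr fun u hu => ⟨hgt.trans_le, fun h => ((hx u hu).2 h).le⟩
          rw [hfun, ha]
          exact os_congr fun u hu => (hFf u (mem_filter.1 hu).1 x
            ⟨hxs.1.1, ((hx u (mem_filter.1 hu).1).2 (mem_filter.1 hu).2).le⟩).symm
        · rw [h0]
          exact os_congr fun u hu =>
            (hFf u (mem_filter.1 hu).1 x₀ ⟨hx₀.1, (mem_filter.1 hu).2.le⟩).symm
      · rw [h0]
        exact os_congr fun u hu =>
          (hFf u (mem_filter.1 hu).1 x₀ ⟨hx₀.1, (mem_filter.1 hu).2.le⟩).symm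
    · refine continuousWithinAt_singleton.mono fun x hx => ?_
      rw [Set.mem_singleton_iff]
      exact le_antisymm (hx.1.2.trans_eq heq.symm) hx.2

omit hB hL

/-- A star side can be uncrossed without leaving the union of its edges. -/
theorem uncross [DecidableEq ι] (hB : Block S xI yI b y f) :
    ∃ (L : ι → ℕ) (h : ι → ℝ → ℝ), Set.InjOn L S ∧
      (∀ q ∈ S, ContinuousOn (h q) (Set.Icc xI (b q)) ∧ h q xI = yI ∧ h q (b q) = y q) ∧
      (∀ q ∈ S, ∀ r ∈ S, b r < b q → h q (b r) ≠ y r ∧ (y r < h q (b r) ↔ L r < L q)) ∧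
      (∀ q ∈ S, ∀ x ≤ b q, ∃ u ∈ S, x ≤ b u ∧ f u x = h q x) ∧
      (∀ q ∈ S, ∀ q' ∈ S, q' ≠ q → ∀ x ≤ b q, x ≤ b q' → h q' x = h q x →
        ∃ u ∈ S, ∃ u' ∈ S, u ≠ u' ∧ x ≤ b u ∧ x ≤ b u' ∧ f u x = h q x ∧ f u' x = h q x) := by
  obtain ⟨L, hL⟩ := exists_code b y f S hB.inj
  exact ⟨L, hfun S b f L, hL.1,
    fun q hq => ⟨hfun_continuous hB hL hq, hfun_start hB hq, hfun_stop hB hL hq⟩,
    fun q hq r hr h => hfun_at_vertex hB hL hr hq h,
    fun q hq x hx => hfun_value hq hx,
    fun q hq q' hq' hne x hx hx' he => hfun_two hL.1 hq hq' hne hx hx' he⟩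

end Vale.Agent.P040.Mono
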